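import Vale.Agent.P205.H366.FlexMan

/-!
P205, closeness to a given map: the geometric data with a given initial immersion which is short by
a factor `8`, and the descent of the model maps from the cover, with the distance to the initial
map.
-/

noncomputable section

set_option linter.unusedSectionVars false

open scoped ContDiff

namespace Vale.Agent.P205.TW

open Vale.Agent.P205.F

universe u

variable {P : Type u} {κ : Type} [Fintype κ] {S : DAlg P κ}

/-- final data whose initial map is the given immersion, short by a factor `8` -/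
theorem geoC_near (hpos : PosS S) {σ : P → P} {g : κ → κ → P → ℂ} (D : DIn S σ g)
    (hshort : ∀ p ξ, qfm (S.met D.F) p ξ ≤ 1 / 8 * qfm g p ξ) :
    ∃ D' : GeoC S σ g, D'.X0 = D.F := by
  obtain ⟨c1, hc1, hpl⟩ := exists_pl hpos D.spanH D.gT D.gpos D.grank
  have hmr : ∀ p, ∃ a b, 0 < (S.met D.F a a p).re * (S.met D.F b b p).re
      - (S.met D.F a b p).re ^ 2 := by
    intro p
    obtain ⟨a, b, hab⟩ := D.grank p
    refine ⟨a, b, ?_⟩
    have h1 := D.gram_ne D.gT (ne_of_gt hab)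
    rw [D.met_re, D.met_re, D.met_re]
    have h2 := (det_nonneg D.metT D.qf_met_nonneg p a b).1
    rw [D.met_re, D.met_re, D.met_re] at h2
    exact lt_of_le_of_ne h2 (Ne.symm h1)
  obtain ⟨c2, hc2, hplm⟩ := exists_pl hpos D.spanH D.metT D.qf_met_nonneg hmr
  -- `met F ≤ C3 g`, `g ≤ C4 met F`
  obtain ⟨C3, hC3, h3⟩ := exists_cmp hc1 hpl D.gT D.gpos D.metT
  obtain ⟨C4, hC4, h4⟩ := exists_cmp hc2 hplm D.metT D.qf_met_nonneg D.gT
  -- the tensor `dψ ⊗ dψ`
  have hψT : TSm S (fun j k p => S.D j D.ψ p * S.D k D.ψ p) := by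
    refine ⟨⟨fun j k => ?_, fun p c hc k => ?_⟩, fun j k => (D.rψ.D j).mul (D.rψ.D k)⟩
    · funext p; exact mul_comm _ _
    · show ∑ j, c j * (S.D j D.ψ p * S.D k D.ψ p) = 0
      simp_rw [← mul_assoc]
      rw [← Finset.sum_mul, hc _ D.rψ.1, zero_mul]
  have hψq : ∀ p ξ, qfm (fun j k p => S.D j D.ψ p * S.D k D.ψ p) p ξ =
      (∑ j, (S.D j D.ψ p).re * ξ j) ^ 2 := by
    intro p ξ
    unfold qfm
    rw [pow_two, Finset.sum_mul_sum]
    refine Finset.sum_congr rfl fun j _ => Finset.sum_congr rfl fun k _ => ?_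
    rw [Complex.mul_re, (D.rψ.D j).2 p, zero_mul, sub_zero]
    ring
  obtain ⟨C5, hC5, h5⟩ := exists_cmp hc1 hpl D.gT D.gpos hψT
  set ρ : ℝ := min 1 (1 / (4 * C5)) with hρ
  have hρ0 : 0 < ρ := lt_min one_pos (by positivity)
  have hρ1 : ρ ≤ 1 := min_le_left _ _
  -- lower bound for `dψ`
  have hru : RSm S (fun p => ∑ j, S.D j D.ψ p ^ 2) := RSm.sum fun j _ => (D.rψ.D j).pow2
  have hre : ∀ p, (∑ j, S.D j D.ψ p ^ 2).re = ∑ j, (S.D j D.ψ p).re ^ 2 := by
    intro p
    rw [Complex.re_sum]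
    refine Finset.sum_congr rfl fun j _ => ?_
    rw [pow_two, Complex.mul_re, (D.rψ.D j).2 p, zero_mul, sub_zero, pow_two]
  have hrr : RSm S D.r.Ψ := ⟨D.ray.smΨ, D.ray.rΨ⟩
  obtain ⟨c6, hc6, h6⟩ := low_on hpos hru hrr (hin_smooth (11 / 10) (19 / 10))
    (fun x => expNegInvGlue.nonneg _) (fun p => by
      show 0 ≤ (∑ j, S.D j D.ψ p ^ 2).re
      rw [hre]; exact Finset.sum_nonneg fun j _ => sq_nonneg _) (fun p hp => by
      show 0 < (∑ j, S.D j D.ψ p ^ 2).re
      rw [hin_zero] at hp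
      have h7 : (D.r.Ψ p).re ≤ 11 / 10 ∨ 19 / 10 ≤ (D.r.Ψ p).re := by
        by_contra hcon
        push Not at hcon
        nlinarith [mul_pos (sub_pos.2 hcon.1) (sub_pos.2 hcon.2)]
      obtain ⟨j, hj⟩ := D.nd p h7
      rw [hre]
      have h8 : (S.D j D.ψ p).re ≠ 0 := by
        intro h9
        apply hj
        rw [(D.rψ.D j).eq_re, h9]; simp
      refine lt_of_lt_of_le (pow_pos (abs_pos.2 h8) 2) ?_
      rw [sq_abs]
      exact Finset.single_le_sum (f := fun j => (S.D j D.ψ p).re ^ 2) (fun j _ => sq_nonneg _)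
        (Finset.mem_univ j))
  -- lower bound for `w`
  have hdir : ∀ a, RSm S (S.dir D.r.w (D.F a)) := fun a =>
    ⟨S.sm_dir D.ray.smw (D.rF a).1, Rl.dir D.ray.rw' (D.rF a).1 (D.rF a).2⟩
  have hwu : RSm S (fun p => ∑ a, S.dir D.r.w (D.F a) p ^ 2) :=
    RSm.sum fun a _ => (hdir a).pow2
  have hwre : ∀ p, (∑ a, S.dir D.r.w (D.F a) p ^ 2).re =
      ∑ a, (S.dir D.r.w (D.F a) p).re ^ 2 := by
    intro p
    rw [Complex.re_sum]
    refine Finset.sum_congr rfl fun j _ => ?_
    rw [pow_two, Complex.mul_re, (hdir j).2 p, zero_mul, sub_zero, pow_two]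
  obtain ⟨c7, hc7, h7⟩ := low_on hpos hwu hrr (hout_smooth (1 / 2) (5 / 2))
    (fun x => expNegInvGlue.nonneg _) (fun p => by
      show 0 ≤ (∑ a, S.dir D.r.w (D.F a) p ^ 2).re
      rw [hwre]; exact Finset.sum_nonneg fun j _ => sq_nonneg _) (fun p hp => by
      show 0 < (∑ a, S.dir D.r.w (D.F a) p ^ 2).re
      rw [hout_zero] at hp
      have h7 : p ∈ D.r.K := by
        rw [D.rK]
        constructor
        · by_contra hcon
          push Not at hcon
          nlinarith [mul_pos (sub_pos.2 hcon) (show (0 : ℝ) < 5 / 2 - (D.r.Ψ p).re by linarith)]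
        · by_contra hcon
          push Not at hcon
          nlinarith [mul_pos (sub_pos.2 hcon) (show (0 : ℝ) < (D.r.Ψ p).re - 1 / 2 by linarith only [hcon])]
      obtain ⟨a, ha⟩ := D.wne p h7
      rw [hwre]
      have h8 : (S.dir D.r.w (D.F a) p).re ≠ 0 := by
        intro h9
        apply ha
        rw [(hdir a).eq_re, h9]; simp
      refine lt_of_lt_of_le (pow_pos (abs_pos.2 h8) 2) ?_
      rw [sq_abs]
      exact Finset.single_le_sum (f := fun a => (S.dir D.r.w (D.F a) p).re ^ 2)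
        (fun j _ => sq_nonneg _) (Finset.mem_univ a))
  set N : ℝ := (Fintype.card κ : ℝ) + 1 with hN
  have hN0 : 0 < N := by (clear * -; positivity)
  set c : ℝ := min (min c1 (1 / C4)) (min (ρ * Real.sqrt (c6 / N)) (c7 / C3)) with hc
  have hc0 : 0 < c := lt_min (lt_min hc1 (by positivity))
    (lt_min (mul_pos hρ0 (Real.sqrt_pos.2 (by positivity))) (by positivity))
  refine ⟨{ X0 := D.F, q1 := D.q1, q2 := D.q2,
            ψ := fun q => (ρ : ℂ) * D.ψ q, r := D.r, e := D.e, c := c, cpos := hc0,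
            inv := D.inv, gT := D.gT, gev := D.gev, gpos := D.gpos,
            pl := hpl.mono hc0 ((min_le_left _ _).trans (min_le_left _ _)),
            rX := D.rF, nf := D.nf, Xev := D.Fev, q1ev := D.q1ev,
            q2od := D.q2od, imm := fun p ξ => ?_, short := hshort,
            rψ := D.rψ.smul ρ, ψod := fun p => ?_, ψsmall := fun p ξ => ?_,
            nd := fun p hp => ?_, ray := D.ray, rK := D.rK, Ψev := D.Ψev, tev := D.tev,
            wev := D.wev, βev := D.βev, gww := fun p hp => ?_, re := D.re, eod := D.eod,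
            esq := D.esq, eD := D.eD, prim := D.prim }, rfl⟩
  · have k1 := (le_abs_self _).trans (h4 p ξ)
    have k2 : c ≤ 1 / C4 := (min_le_left _ _).trans (min_le_right _ _)
    calc c * qfm g p ξ ≤ (1 / C4) * qfm g p ξ := mul_le_mul_of_nonneg_right k2 (D.gpos p ξ)
      _ ≤ (1 / C4) * (C4 * qfm (S.met D.F) p ξ) :=
          mul_le_mul_of_nonneg_left k1 (by positivity)
      _ = qfm (S.met D.F) p ξ := by field_simp
  · show (ρ : ℂ) * D.ψ (σ p) = -(ρ * D.ψ p)
    rw [D.ψod p]; ring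
  · have k0 : (∑ j, (S.D j (fun q => (ρ : ℂ) * D.ψ q) p).re * ξ j) ^ 2 =
        ρ ^ 2 * qfm (fun j k p => S.D j D.ψ p * S.D k D.ψ p) p ξ := by
      rw [hψq, ← mul_pow]
      congr 1
      rw [Finset.mul_sum]
      refine Finset.sum_congr rfl fun j _ => ?_
      rw [D_smul_real D.rψ.1, Complex.re_ofReal_mul]
      ring
    rw [k0]
    have k1 := (le_abs_self _).trans (h5 p ξ)
    have k2 : ρ ^ 2 ≤ 1 / (4 * C5) := by
      calc ρ ^ 2 = ρ * ρ := pow_two _
        _ ≤ 1 * (1 / (4 * C5)) := mul_le_mul hρ1 (min_le_right _ _) hρ0.le zero_le_one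
        _ = _ := one_mul _
    calc ρ ^ 2 * qfm (fun j k p => S.D j D.ψ p * S.D k D.ψ p) p ξ ≤ ρ ^ 2 * (C5 * qfm g p ξ) :=
          mul_le_mul_of_nonneg_left k1 (by positivity)
      _ ≤ (1 / (4 * C5)) * (C5 * qfm g p ξ) :=
          mul_le_mul_of_nonneg_right k2 (mul_nonneg hC5.le (D.gpos p ξ))
      _ = 1 / 4 * qfm g p ξ := by field_simp
  · have k1 : c6 ≤ ∑ j, (S.D j D.ψ p).re ^ 2 := by
      rw [← hre]
      refine h6 p (hin_zero.2 ?_)
      rcases hp with hp | hp
      · exact mul_nonpos_of_nonpos_of_nonneg (by linarith) (by linarith only [hp])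
      · exact mul_nonpos_of_nonneg_of_nonpos (by linarith only [hp]) (by linarith)
    obtain ⟨j, hj⟩ : ∃ j, c6 / N ≤ (S.D j D.ψ p).re ^ 2 := by
      by_contra hcon
      push Not at hcon
      have k2 : ∑ j, (S.D j D.ψ p).re ^ 2 ≤ ∑ _j : κ, c6 / N :=
        Finset.sum_le_sum fun j _ => (hcon j).le
      rw [Finset.sum_const, Finset.card_univ, nsmul_eq_mul] at k2
      have k3 : (Fintype.card κ : ℝ) * (c6 / N) < c6 := by
        rw [← mul_div_assoc, div_lt_iff₀ hN0, hN]
        linarith only [hc6]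
      linarith
    refine ⟨j, ?_⟩
    rw [D_smul_real D.rψ.1, Complex.re_ofReal_mul, abs_mul, abs_of_pos hρ0]
    have k4 : Real.sqrt (c6 / N) ≤ |(S.D j D.ψ p).re| := by
      rw [← Real.sqrt_sq_eq_abs]
      exact Real.sqrt_le_sqrt hj
    calc c ≤ ρ * Real.sqrt (c6 / N) := (min_le_right _ _).trans (min_le_left _ _)
      _ ≤ _ := mul_le_mul_of_nonneg_left k4 hρ0.le
  · have k1 : c7 ≤ ∑ a, (S.dir D.r.w (D.F a) p).re ^ 2 := by
      rw [← hwre]
      refine h7 p (hout_zero.2 ?_)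
      rw [D.rK] at hp
      exact mul_nonpos_of_nonneg_of_nonpos (sub_nonneg.2 hp.1) (sub_nonpos.2 hp.2)
    rw [← D.qf_dir D.ray.rw'] at k1
    have k2 := k1.trans ((le_abs_self _).trans (h3 p _))
    have k3 : c ≤ c7 / C3 := (min_le_right _ _).trans (min_le_right _ _)
    refine k3.trans ?_
    rw [div_le_iff₀ hC3, mul_comm]
    exact k2

/-- descent: exact maps on the base, close to the initial map and with large second derivatives,
from model maps on the cover -/
theorem descend_near {I : Type} (L : Line S I) {g : κ → κ → P → ℂ} (h : S.T1S' g) {ρ : ℝ}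
    (hρ : 0 < ρ) {X0 : Fin 4 → L.Pt → ℂ} (hm : ∀ κ1 : ℝ, 0 < κ1 →
      ModelC' L.cover L.sg (fun j k x => g j k (L.pi x)) X0 κ1) (R : ℝ) :
    ∃ F : Fin 4 → P → ℂ, (∀ a, S.Sm (F a)) ∧ (∀ a, Rl (F a)) ∧
      (∀ j k p, S.met F j k p = g j k p) ∧ (∀ a x, ‖F a (L.pi x) - X0 a x‖ ≤ 2 * ρ) ∧
      ∀ p, ∃ j k a, R ≤ ‖S.D j (S.D k (F a)) p‖ := by
  obtain ⟨κ1, hκ1, h⟩ := h.strong
  obtain ⟨Lam, δ, f, c0, hc0, hL, hLt, hcl, hδ, hδ1, hlim, hs, hr, he, h1, h2, h3, h4,
    h5⟩ := hm κ1 hκ1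
  have hC := isCov_cover L
  -- the maps on the base
  let F : ℕ → Fin 4 → P → ℂ := fun i a => L.ev (f i a)
  have hF : ∀ i a, f i a = fun x => F i a (L.pi x) := fun i a =>
    funext fun x => Line.eq_ev_of_even (he i a) x
  have hF' : ∀ i, f i = fun a x => F i a (L.pi x) := fun i => funext fun a => hF i a
  have hmet : ∀ i j k x, L.cover.met (f i) j k x = S.met (F i) j k (L.pi x) := by
    intro i j k x
    rw [hF' i]
    exact hC.met (F i) j k x
  have key := h Lam δ F c0 hc0 hL hLt hδ hδ1 hlim (fun i a => (hs i a).1) (fun i a => by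
    refine hC.rl ?_
    rw [← hF i a]
    exact hr i a) (fun a => by
    refine hC.fo ?_
    have : (fun i => f i a) = fun i x => F i a (L.pi x) := funext fun i => hF i a
    rw [← this]
    exact h1 a) (fun j a => by
    refine hC.fo ?_
    have : (fun i => L.cover.D j (f i a)) = fun i x => S.D j (F i a) (L.pi x) := by
      funext i
      rw [hF i a, Line.D_pi]
    rw [← this]
    exact h2 j a) (fun i p => by
    obtain ⟨x, rfl⟩ := hC.surj p
    obtain ⟨j1, j2, j, k, h6⟩ := h3 i x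
    refine ⟨j1, j2, j, k, ?_⟩
    rw [← hC.gram (F i) j1 j2 j k x, ← hF' i]
    exact h6) (fun i j k p => by
    obtain ⟨x, rfl⟩ := hC.surj p
    have h6 := h4 i j k x
    rw [hmet] at h6
    exact h6) (fun j k => by
    refine hC.fo ?_
    have : (fun i x => g j k (L.pi x) - L.cover.met (f i) j k x) =
        fun i x => g j k (L.pi x) - S.met (F i) j k (L.pi x) := by
      funext i x
      rw [hmet]
    exact this ▸ h5 j k) ρ hρ R
  obtain ⟨i, ⟨Y, y1, y2, y3, y4, y5⟩, hi2⟩ := (key.and (hcl ρ hρ)).exists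
  refine ⟨Y, y1, y2, y3, fun a x => ?_, y5⟩
  have k1 := y4 a (L.pi x)
  have k2 := hi2 a x
  have k4 : F i a (L.pi x) = f i a x := (congrFun (hF i a) x).symm
  rw [k4] at k1
  have e : Y a (L.pi x) - X0 a x = (Y a (L.pi x) - f i a x) + (f i a x - X0 a x) := by ring
  rw [e]
  refine (norm_add_le _ _).trans ?_
  linarith

end Vale.Agent.P205.TW

end
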