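import Vale.Agent.P205.H308.Near

/-!
P205, closeness to a given map: near every immersion `F` into `ℝ⁴` with a nowhere zero normal field
which is short by a factor `8` there are infinitely many smooth isometric immersions, pairwise
nowhere locally congruent.
-/

noncomputable section

set_option linter.unusedSectionVars false

open scoped Manifold ContDiff Topology RealInnerProductSpace
open Set Filter

namespace Vale.Agent.P205.H308

open Vale.Agent.P205.F Vale.Agent.P205.TW Vale.Agent.P205.TW.Data Vale.Agent.P205.TW.DC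
open Vale.Agent.P205.H366

universe u

section main

variable {E : Type} [NormedAddCommGroup E] [NormedSpace ℝ E]
  {M : Type u} [TopologicalSpace M] [ChartedSpace E M] (K : Cov E M)
  (b : Module.Basis (Fin 2) ℝ E) [IsManifold 𝓘(ℝ, E) ∞ M] [CompactSpace M]
  (g : Bundle.ContMDiffRiemannianMetric 𝓘(ℝ, E) ∞ E (fun x : M => TangentSpace 𝓘(ℝ, E) x))

/-- the map is short by a factor `8` -/
def Short8 (f : M → EuclideanSpace ℝ (Fin 4)) : Prop :=
  ∀ (p : M) (v : E), 8 * ‖Cov.dfE f p v‖ ^ 2 ≤ Cov.gE g p v v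

/-- shortness on the cover -/
theorem short_cover (H : ImmN E M) (hF : Short8 g H.F) (D : MData K b (NM K b H))
    (hp : PrimC (lineM K b H).cover (lineM K b H).sg (gC K b H g)) :
    ∀ x ξ, qfm ((lineM K b H).cover.met (dIn K b H D g hp).F) x ξ ≤
      1 / 8 * qfm (gC K b H g) x ξ := by
  have hfin : FiniteDimensional ℝ E := Module.Basis.finiteDimensional_of_finite b
  intro x ξ
  rw [(dIn K b H D g hp).qf_met, qfm_gC]
  set p := (lineM K b H).pi x with hpx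
  have h1 : ∀ j a, (dIn K b H D g hp).Ev j x a = K.Dv b j H.F p a := by
    intro j a
    have h2 : (((dIn K b H D g hp).Ev j x a : ℝ) : ℂ) = ((K.Dv b j H.F p a : ℝ) : ℂ) :=
      ((dIn K b H D g hp).Ev_eq j x a).trans (D_XC K b H j a x)
    exact_mod_cast h2
  have h3 : ∀ a, (∑ j, (dIn K b H D g hp).Ev j x a * ξ j) =
      (Cov.dfE H.F p (∑ j, ξ j • K.XE b j p)) a := by
    intro a
    rw [map_sum]
    have h4 : (∑ j, Cov.dfE H.F p (ξ j • K.XE b j p)) a =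
        ∑ j, (Cov.dfE H.F p (ξ j • K.XE b j p)) a :=
      map_sum (EuclideanSpace.proj a : EuclideanSpace ℝ (Fin 4) →L[ℝ] ℝ) _ _
    rw [h4]
    refine Finset.sum_congr rfl fun j _ => ?_
    rw [h1, map_smul, K.Dv_eqE b H.smF]
    show _ = ξ j * _
    exact mul_comm _ _
  have h5 : ∑ a, (∑ j, (dIn K b H D g hp).Ev j x a * ξ j) ^ 2 =
      ‖Cov.dfE H.F p (∑ j, ξ j • K.XE b j p)‖ ^ 2 := by
    rw [EuclideanSpace.norm_sq_eq]
    refine Finset.sum_congr rfl fun a _ => ?_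
    rw [h3, Real.norm_eq_abs, sq_abs]
  rw [h5]
  have h6 := hF p (∑ j, ξ j • K.XE b j p)
  linarith

/-- exact maps on the surface: close to the given map, with large second derivatives -/
theorem exists_exact_near [T2Space M] [Nonempty M] (H : ImmN E M) (hF : Short8 g H.F) {ρ : ℝ}
    (hρ : 0 < ρ) (R : ℝ) : ∃ F : Fin 4 → M → ℂ, (∀ a, (K.dalg b).Sm (F a)) ∧ (∀ a, Rl (F a)) ∧
      (∀ j k p, (K.dalg b).met F j k p = K.G b g j k p) ∧
      (∀ a p, ‖F a p - ((H.F p a : ℝ) : ℂ)‖ ≤ 2 * ρ) ∧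
      ∀ p, ∃ j k a, R ≤ ‖(K.dalg b).D j ((K.dalg b).D k (F a)) p‖ := by
  have hfin : FiniteDimensional ℝ E := Module.Basis.finiteDimensional_of_finite b
  have hT : (K.dalg b).T1U' := DAlg.iter' (K.dalg b) (fun Q _ => DAlg.stageF_all (K.dalg b) Q)
    (DAlg.pieces _) (K.complete b) (K.smoothing b)
  have hS : (K.dalg b).T1S' (K.G b g) :=
    hT.t1s (K.G_isT b g) (K.G_rl b g) (K.G_contMDiff b g) (fun _ h0 => K.exists_boxes b g h0)
  obtain ⟨D⟩ := exists_mdataN K b H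
  have hp := primC_cover K b H _ (gC_pos K b H g)
  obtain ⟨D', hD'⟩ := geoC_near (posS_cover (posS_dalg K b)) (dIn K b H D g hp)
    (short_cover K b g H hF D hp)
  obtain ⟨F, h1, h2, h3, h4, h5⟩ := descend_near (lineM K b H) hS hρ (X0 := D'.X0)
    (fun κ1 hκ1 => model_of' D' (nashC (dim2_cover K b H)) chiC (TData.lowerC _) (tensC D') hκ1) R
  refine ⟨F, h1, h2, h3, fun a p => ?_, h5⟩
  obtain ⟨x, rfl⟩ := (isCov_cover (lineM K b H)).surj p
  have h6 := h4 a x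
  rw [hD'] at h6
  exact h6

/-- isometric immersions, close to the given map and with large second derivatives -/
theorem exists_large_near [T2Space M] [Nonempty M] (H : ImmN E M) (hF : Short8 g H.F) {ρ : ℝ}
    (hρ : 0 < ρ) (R : ℝ) : ∃ X : Fin 4 → M → ℝ, (∀ i, ContMDiff 𝓘(ℝ, E) 𝓘(ℝ) ∞ (X i)) ∧
      (∀ (m : M) (v w : TangentSpace 𝓘(ℝ, E) m),
        ∑ i, mvfderiv 𝓘(ℝ, E) (X i) m v * mvfderiv 𝓘(ℝ, E) (X i) m w = g.inner m v w) ∧
      (∀ m, ∑ i, (X i m - H.F m i) ^ 2 ≤ ρ ^ 2) ∧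
      ∀ p, ∃ j k, R ≤ ‖K.Dv b j (K.Dv b k (vec X)) p‖ := by
  have hfin : FiniteDimensional ℝ E := Module.Basis.finiteDimensional_of_finite b
  obtain ⟨F, h1, h2, h3, h4, h5⟩ := exists_exact_near K b g H hF (ρ := ρ / 4) (by positivity) R
  have hX : ∀ i, ContMDiff 𝓘(ℝ, E) 𝓘(ℝ, ℝ) ∞ (fun p => (F i p).re) :=
    fun i => Cov.contMDiff_re (h1 i)
  refine ⟨fun i p => (F i p).re, hX, real_isom K b g F h1 h2 h3, fun m => ?_, fun p => ?_⟩
  · have h6 : ∀ i, ((F i m).re - H.F m i) ^ 2 ≤ (ρ / 2) ^ 2 := fun i => by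
      have h8 : (F i m - ((H.F m i : ℝ) : ℂ)).re = (F i m).re - H.F m i := by
        rw [Complex.sub_re, Complex.ofReal_re]
      have h7 : |(F i m).re - H.F m i| ≤ ρ / 2 := by
        rw [← h8]
        exact (Complex.abs_re_le_norm _).trans ((h4 i m).trans (le_of_eq (by ring)))
      rw [← sq_abs]
      exact pow_le_pow_left₀ (abs_nonneg _) h7 2
    calc ∑ i, ((F i m).re - H.F m i) ^ 2 ≤ ∑ _i : Fin 4, (ρ / 2) ^ 2 :=
          Finset.sum_le_sum fun i _ => h6 i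
      _ = ρ ^ 2 := by simp; ring
  · obtain ⟨j, k, a, h6⟩ := h5 p
    refine ⟨j, k, h6.trans ?_⟩
    have hFa : F a = fun p => (((F a p).re : ℝ) : ℂ) := by
      funext p
      exact Complex.ext (by simp) (by simpa using h2 a p)
    have e1 : (K.dalg b).D j ((K.dalg b).D k (F a)) p =
        ((K.Dv b j (K.Dv b k (fun p => (F a p).re)) p : ℝ) : ℂ) := by
      rw [Cov.dalg_D, Cov.dalg_D]
      conv_lhs => rw [hFa]
      rw [K.Dv_ofReal b (hX a), K.Dv_ofReal b (K.Dv_contMDiff b (hX a) k)]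
    rw [e1, Complex.norm_real]
    have hv := contMDiff_vec hX
    have e2 : K.Dv b k (fun p => (F a p).re) = fun p =>
        (EuclideanSpace.proj a : EuclideanSpace ℝ (Fin 4) →L[ℝ] ℝ)
          (K.Dv b k (vec fun i p => (F i p).re) p) :=
      K.Dv_clm b (EuclideanSpace.proj a : EuclideanSpace ℝ (Fin 4) →L[ℝ] ℝ) hv k
    have e3 : K.Dv b j (K.Dv b k (fun p => (F a p).re)) p =
        (EuclideanSpace.proj a : EuclideanSpace ℝ (Fin 4) →L[ℝ] ℝ)
          (K.Dv b j (K.Dv b k (vec fun i p => (F i p).re)) p) := by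
      rw [e2, K.Dv_clm b (EuclideanSpace.proj a : EuclideanSpace ℝ (Fin 4) →L[ℝ] ℝ)
        (K.Dv_contMDiff b hv k)]
    rw [e3]
    exact PiLp.norm_apply_le (p := 2) (β := fun _ : Fin 4 => ℝ)
      (K.Dv b j (K.Dv b k (vec fun i p => (F i p).re)) p) a

end main

section pair

variable {E : Type} [NormedAddCommGroup E] [NormedSpace ℝ E]
  {M : Type u} [TopologicalSpace M] [ChartedSpace E M] [IsManifold 𝓘(ℝ, E) ∞ M] [CompactSpace M]

/-- a nowhere zero normal field can be normalised, the immersion is kept -/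
theorem immN_of_pair' (f ξ : M → EuclideanSpace ℝ (Fin 4))
    (hf : ContMDiff 𝓘(ℝ, E) 𝓘(ℝ, EuclideanSpace ℝ (Fin 4)) ∞ f)
    (hinj : ∀ p, Function.Injective (mfderiv 𝓘(ℝ, E) 𝓘(ℝ, EuclideanSpace ℝ (Fin 4)) f p))
    (hξ : ContMDiff 𝓘(ℝ, E) 𝓘(ℝ, EuclideanSpace ℝ (Fin 4)) ∞ ξ)
    (hperp : ∀ (p : M) (v : TangentSpace 𝓘(ℝ, E) p),
      inner ℝ (ξ p) (mfderiv 𝓘(ℝ, E) 𝓘(ℝ, EuclideanSpace ℝ (Fin 4)) f p v :
        EuclideanSpace ℝ (Fin 4)) = 0)
    (h0 : ∀ p, ξ p ≠ 0) : ∃ H : ImmN E M, H.F = f := by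
  have hn : ContMDiff 𝓘(ℝ, E) 𝓘(ℝ, ℝ) ∞ (fun p => ‖ξ p‖) := by
    intro p
    have h1 : ContDiffAt ℝ ∞ (fun x : EuclideanSpace ℝ (Fin 4) => ‖x‖) (ξ p) :=
      contDiffAt_norm ℝ (h0 p)
    exact h1.contMDiffAt.comp p (hξ p)
  have hi : ContMDiff 𝓘(ℝ, E) 𝓘(ℝ, ℝ) ∞ (fun p => ‖ξ p‖⁻¹) := by
    intro p
    have h1 : ContDiffAt ℝ ∞ (fun x : ℝ => x⁻¹) ‖ξ p‖ :=
      contDiffAt_inv ℝ (norm_ne_zero_iff.2 (h0 p))
    exact h1.contMDiffAt.comp p (hn p)
  refine ⟨⟨f, fun p => ‖ξ p‖⁻¹ • ξ p, hf, ?_, hinj, ?_, ?_⟩, rfl⟩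
  · exact hi.smul hξ
  · intro p
    rw [norm_smul, norm_inv, norm_norm, inv_mul_cancel₀ (norm_ne_zero_iff.2 (h0 p))]
  · intro p v
    exact (real_inner_smul_left (ξ p)
      (mfderiv 𝓘(ℝ, E) 𝓘(ℝ, EuclideanSpace ℝ (Fin 4)) f p v : EuclideanSpace ℝ (Fin 4))
      (‖ξ p‖⁻¹)).trans ((congrArg (fun t => ‖ξ p‖⁻¹ * t) (hperp p v)).trans (mul_zero _))

/-- components of the differential of a vector of four functions -/
theorem dfE_vec {F : Fin 4 → M → ℝ} (hF : ∀ i, ContMDiff 𝓘(ℝ, E) 𝓘(ℝ) ∞ (F i)) (p : M) (v : E)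
    (i : Fin 4) : (Cov.dfE (vec F) p v) i = mvfderiv 𝓘(ℝ, E) (F i) p v := by
  have h1 : MDifferentiableAt 𝓘(ℝ, E) 𝓘(ℝ, EuclideanSpace ℝ (Fin 4)) (vec F) p :=
    (contMDiff_vec hF p).mdifferentiableAt (by simp)
  have h2 : MDifferentiableAt 𝓘(ℝ, EuclideanSpace ℝ (Fin 4)) 𝓘(ℝ, ℝ)
      (EuclideanSpace.proj i : EuclideanSpace ℝ (Fin 4) →L[ℝ] ℝ) (vec F p) :=
    (EuclideanSpace.proj i : EuclideanSpace ℝ (Fin 4) →L[ℝ] ℝ).differentiableAt.mdifferentiableAt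
  have h3 := mfderiv_comp p h2 h1
  have h4 : ((EuclideanSpace.proj i : EuclideanSpace ℝ (Fin 4) →L[ℝ] ℝ) ∘ vec F) = F i := rfl
  have h5 : mfderiv 𝓘(ℝ, EuclideanSpace ℝ (Fin 4)) 𝓘(ℝ, ℝ)
      (EuclideanSpace.proj i : EuclideanSpace ℝ (Fin 4) →L[ℝ] ℝ) (vec F p) =
      (EuclideanSpace.proj i : EuclideanSpace ℝ (Fin 4) →L[ℝ] ℝ) := by
    rw [mfderiv_eq_fderiv, ContinuousLinearMap.fderiv]
  rw [h4, h5] at h3
  have h6 : (mfderiv 𝓘(ℝ, E) 𝓘(ℝ, ℝ) (F i) p : E →L[ℝ] ℝ) v =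
      (EuclideanSpace.proj i : EuclideanSpace ℝ (Fin 4) →L[ℝ] ℝ) (Cov.dfE (vec F) p v) :=
    congrArg (fun T : E →L[ℝ] ℝ => T v) h3
  exact h6.symm

end pair

/-- **Closeness to a given map.** Near every immersion `F : M → ℝ⁴` with a nowhere zero normal
field `ξ` and `8 F^*⟨·,·⟩ ≤ g` there are infinitely many smooth isometric immersions of `(M, g)`,
pairwise nowhere locally congruent. -/
theorem near {E : Type} [NormedAddCommGroup E] [NormedSpace ℝ E]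
    (hE : Module.finrank ℝ E = 2) {M : Type u} [TopologicalSpace M] [T2Space M] [CompactSpace M]
    [ChartedSpace E M] [IsManifold 𝓘(ℝ, E) ∞ M] (F ξ : Fin 4 → M → ℝ)
    (hF : ∀ i, ContMDiff 𝓘(ℝ, E) 𝓘(ℝ) ∞ (F i)) (hξ : ∀ i, ContMDiff 𝓘(ℝ, E) 𝓘(ℝ) ∞ (ξ i))
    (himm : ∀ (m : M) (v : TangentSpace 𝓘(ℝ, E) m), v ≠ 0 →
      ∃ i, mvfderiv 𝓘(ℝ, E) (F i) m v ≠ 0)
    (hξ0 : ∀ m, ∃ i, ξ i m ≠ 0)
    (hperp : ∀ (m : M) (v : TangentSpace 𝓘(ℝ, E) m),
      ∑ i, ξ i m * mvfderiv 𝓘(ℝ, E) (F i) m v = 0)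
    (g : Bundle.ContMDiffRiemannianMetric 𝓘(ℝ, E) ∞ E (fun x : M => TangentSpace 𝓘(ℝ, E) x))
    (hg : ∀ (m : M) (v : TangentSpace 𝓘(ℝ, E) m),
      8 * ∑ i, mvfderiv 𝓘(ℝ, E) (F i) m v ^ 2 ≤ g.inner m v v)
    {ρ : ℝ} (hρ : 0 < ρ) :
    ∃ X : ℕ → Fin 4 → M → ℝ, (∀ n i, ContMDiff 𝓘(ℝ, E) 𝓘(ℝ) ∞ (X n i)) ∧
      (∀ n (m : M) (v w : TangentSpace 𝓘(ℝ, E) m),
        ∑ i, mvfderiv 𝓘(ℝ, E) (X n i) m v * mvfderiv 𝓘(ℝ, E) (X n i) m w = g.inner m v w) ∧
      (∀ n m, ∑ i, (X n i m - F i m) ^ 2 ≤ ρ ^ 2) ∧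
      ∀ n n', n ≠ n' → ∀ U : Set M, IsOpen U → U.Nonempty →
        ∀ A : EuclideanSpace ℝ (Fin 4) → EuclideanSpace ℝ (Fin 4), Isometry A →
          ¬ ∀ m ∈ U, WithLp.toLp 2 (fun i => X n i m) = A (WithLp.toLp 2 fun i => X n' i m) := by
  rcases isEmpty_or_nonempty M with he | he
  · exact ⟨fun _ _ _ => 0, fun _ _ => contMDiff_const, fun _ m => (he.false m).elim,
      fun _ m => (he.false m).elim, fun _ _ _ _ _ hU => (he.false hU.some).elim⟩
  have hfin : FiniteDimensional ℝ E :=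
    FiniteDimensional.of_finrank_pos (by rw [hE]; exact two_pos)
  obtain ⟨K⟩ := Cov.exists (E := E) (M := M)
  have b := Module.finBasisOfFinrankEq ℝ E hE
  obtain ⟨H, hH⟩ := immN_of_pair' (E := E) (vec F) (vec ξ) (contMDiff_vec hF) (fun p => by
      have h1 : ∀ v : E, Cov.dfE (vec F) p v = 0 → v = 0 := by
        intro v hv
        by_contra hne
        obtain ⟨i, hi⟩ := himm p v hne
        apply hi
        have h2 := dfE_vec hF p v i
        rw [hv] at h2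
        exact h2.symm
      exact (injective_iff_map_eq_zero (Cov.dfE (vec F) p : E →L[ℝ] _)).2 h1)
    (contMDiff_vec hξ) (fun p v => by
      have h1 : inner ℝ (vec ξ p) (Cov.dfE (E := E) (vec F) p v) = 0 := by
        rw [PiLp.inner_apply]
        refine Eq.trans (Finset.sum_congr rfl fun i _ => ?_) (hperp p v)
        rw [dfE_vec hF p v i]
        simp only [RCLike.inner_apply, conj_trivial]
        exact mul_comm _ _
      exact h1)
    (fun p h => by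
      obtain ⟨i, hi⟩ := hξ0 p
      apply hi
      exact congrArg (fun x : EuclideanSpace ℝ (Fin 4) => x i) h)
  have hS : Short8 g H.F := by
    intro p v
    rw [hH, EuclideanSpace.norm_sq_eq]
    refine le_trans (le_of_eq ?_) (hg p v)
    congr 1
    refine Finset.sum_congr rfl fun i _ => ?_
    rw [dfE_vec hF p v i, Real.norm_eq_abs, sq_abs]
  choose Y hY1 hY2 hY3 hY4 using fun R => exists_large_near K b g H hS hρ R
  choose B hB using fun R => exists_bound_Dv2 K b (contMDiff_vec (hY1 R))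
  let r : ℕ → ℝ := fun n => Nat.rec 0 (fun _ x => max x (B x) + 1) n
  have hrs : ∀ n, r (n + 1) = max (r n) (B (r n)) + 1 := fun n => rfl
  have hrm : Monotone r := monotone_nat_of_le_succ fun n => by
    rw [hrs]
    linarith [le_max_left (r n) (B (r n))]
  have hrB : ∀ m n, m < n → B (r m) < r n := fun m n hmn => by
    have h1 : r (m + 1) ≤ r n := hrm hmn
    rw [hrs] at h1
    linarith [le_max_right (r m) (B (r m))]
  refine ⟨fun n => Y (r n), fun n i => hY1 _ i, fun n => hY2 _, fun n m => ?_,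
    fun n n' hnn U hU hne A hA hcon => ?_⟩
  · have h1 := hY3 (r n) m
    rw [hH] at h1
    exact h1
  obtain ⟨p, hp⟩ := hne
  have key := norm_Dv2_congr K b (contMDiff_vec (hY1 (r n))) (contMDiff_vec (hY1 (r n'))) hU hA
    (fun q hq => hcon q hq)
  rcases lt_or_gt_of_ne hnn with hlt | hlt
  · obtain ⟨j, k, h1⟩ := hY4 (r n') p
    have h2 := key j k p hp
    have h3 := hB (r n) j k p
    have h4 := hrB n n' hlt
    linarith
  · obtain ⟨j, k, h1⟩ := hY4 (r n) p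
    have h2 := key j k p hp
    have h3 := hB (r n') j k p
    have h4 := hrB n' n hlt
    linarith

end Vale.Agent.P205.H308

end
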