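import Vale.Agent.P205.H308.NearMan
import Vale.Agent.P205.H202.Geo

/-!
P205: every strictly short smooth immersion `F : M → ℝ⁴` of a closed surface with a nowhere zero
normal field is a uniform limit of smooth isometric immersions.
-/

noncomputable section

set_option linter.unusedSectionVars false

open scoped Manifold ContDiff Topology RealInnerProductSpace
open Set Filter

namespace Vale.Agent.P205.H308

open Vale.Agent.P205.F Vale.Agent.P205.TW Vale.Agent.P205.TW.Data Vale.Agent.P205.TW.DC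
open Vale.Agent.P205.H366

universe u

section main

variable {E : Type} [NormedAddCommGroup E] [NormedSpace ℝ E]
  {M : Type u} [TopologicalSpace M] [ChartedSpace E M] (K : Cov E M)
  (b : Module.Basis (Fin 2) ℝ E) [IsManifold 𝓘(ℝ, E) ∞ M] [CompactSpace M]
  (g : Bundle.ContMDiffRiemannianMetric 𝓘(ℝ, E) ∞ E (fun x : M => TangentSpace 𝓘(ℝ, E) x))

/-- the map is strictly short -/
def StrictShort (f : M → EuclideanSpace ℝ (Fin 4)) : Prop :=
  ∀ (p : M) (v : E), v ≠ 0 → ‖Cov.dfE f p v‖ ^ 2 < Cov.gE g p v v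

section cov

variable (H : ImmN E M) (D : MData K b (NM K b H))
  (hp : PrimC (lineM K b H).cover (lineM K b H).sg (gC K b H g))

theorem Ev_dIn (j : Fin K.n × Fin 2) (x : (lineM K b H).Pt) (a : Fin 4) :
    (dIn K b H D g hp).Ev j x a =
      Cov.dfE H.F ((lineM K b H).pi x) (K.XE b j ((lineM K b H).pi x)) a := by
  have hfin : FiniteDimensional ℝ E := Module.Basis.finiteDimensional_of_finite b
  have h2 : (((dIn K b H D g hp).Ev j x a : ℝ) : ℂ) =
      ((K.Dv b j H.F ((lineM K b H).pi x) a : ℝ) : ℂ) :=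
    ((dIn K b H D g hp).Ev_eq j x a).trans (D_XC K b H j a x)
  rw [← K.Dv_eqE b H.smF]
  exact_mod_cast h2

/-- the metric of the immersion on the cover -/
theorem qf_metC (x : (lineM K b H).Pt) (ξ : Fin K.n × Fin 2 → ℝ) :
    qfm ((lineM K b H).cover.met (dIn K b H D g hp).F) x ξ =
      ‖Cov.dfE H.F ((lineM K b H).pi x)
        (∑ j, ξ j • K.XE b j ((lineM K b H).pi x))‖ ^ 2 := by
  rw [(dIn K b H D g hp).qf_met, EuclideanSpace.norm_sq_eq]
  refine Finset.sum_congr rfl fun a _ => ?_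
  rw [Real.norm_eq_abs, sq_abs]
  congr 1
  rw [map_sum]
  have h4 : (∑ j, Cov.dfE H.F ((lineM K b H).pi x) (ξ j • K.XE b j ((lineM K b H).pi x))) a =
      ∑ j, (Cov.dfE H.F ((lineM K b H).pi x) (ξ j • K.XE b j ((lineM K b H).pi x))) a :=
    map_sum (EuclideanSpace.proj a : EuclideanSpace ℝ (Fin 4) →L[ℝ] ℝ) _ _
  rw [h4]
  refine Finset.sum_congr rfl fun j _ => ?_
  rw [Ev_dIn, map_smul]
  show _ = ξ j * _
  exact mul_comm _ _

/-- the rest `g - F^*⟨·,·⟩` has rank two -/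
theorem rest_rank (hF : StrictShort g H.F) (x : (lineM K b H).Pt) :
    ∃ a c, 0 < (gC K b H g a a x - (lineM K b H).cover.met (dIn K b H D g hp).F a a x).re *
      (gC K b H g c c x - (lineM K b H).cover.met (dIn K b H D g hp).F c c x).re
      - (gC K b H g a c x - (lineM K b H).cover.met (dIn K b H D g hp).F a c x).re ^ 2 := by
  have hfin : FiniteDimensional ℝ E := Module.Basis.finiteDimensional_of_finite b
  obtain ⟨i, hi⟩ := K.cov ((lineM K b H).pi x)
  refine ⟨(i, 0), (i, 1), ?_⟩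
  set p := (lineM K b H).pi x with hpx
  set u : Fin K.n × Fin 2 → E := fun j => K.XE b j p with hu
  set T : E →L[ℝ] EuclideanSpace ℝ (Fin 4) := Cov.dfE H.F p with hT
  set G : E →L[ℝ] E →L[ℝ] ℝ := Cov.gE g p with hG
  have hB : ∀ j k, (gC K b H g j k x - (lineM K b H).cover.met (dIn K b H D g hp).F j k x).re =
      G (u j) (u k) - ⟪T (u j), T (u k)⟫ := by
    intro j k
    rw [Complex.sub_re, (dIn K b H D g hp).met_re]
    have h1 : (gC K b H g j k x).re = G (u j) (u k) := Complex.ofReal_re _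
    have h2 : (dIn K b H D g hp).Ev j x ⬝ᵥ (dIn K b H D g hp).Ev k x = ⟪T (u j), T (u k)⟫ := by
      rw [inner_eq_dt4, dt4, dotProduct]
      refine Finset.sum_congr rfl fun a _ => ?_
      rw [Ev_dIn, Ev_dIn]
    rw [h1, h2]
  rw [hB, hB, hB]
  have hsym : ∀ v w, G v w = G w v := fun v w => g.symm p v w
  -- independence
  have hind : ∀ s t : ℝ, s • u (i, 0) + t • u (i, 1) = 0 → s = 0 ∧ t = 0 := by
    intro s t hst
    have h1 : s • T (u (i, 0)) + t • T (u (i, 1)) = 0 := by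
      rw [← map_smul, ← map_smul, ← map_add, hst, map_zero]
    have h2 : ∀ a : Fin 2, (fun k => T (u (i, a)) k) = raw K b H i a p := by
      intro a
      rw [← Dv_raw K b H hi a]
      funext k
      rw [K.Dv_eqE b H.smF]
    have h3 := raw_indep K b H (K.V_sub i hi)
    rw [LinearIndependent.pair_iff] at h3
    refine h3 s t ?_
    rw [← h2, ← h2]
    funext k
    have h4 := congrArg (fun z : EuclideanSpace ℝ (Fin 4) => z k) h1
    exact h4
  have hpos : ∀ s t : ℝ, (s ≠ 0 ∨ t ≠ 0) →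
      0 < s * s * (G (u (i, 0)) (u (i, 0)) - ⟪T (u (i, 0)), T (u (i, 0))⟫)
        + 2 * (s * t) * (G (u (i, 0)) (u (i, 1)) - ⟪T (u (i, 0)), T (u (i, 1))⟫)
        + t * t * (G (u (i, 1)) (u (i, 1)) - ⟪T (u (i, 1)), T (u (i, 1))⟫) := by
    intro s t hst
    have hne : s • u (i, 0) + t • u (i, 1) ≠ 0 := by
      intro h0
      obtain ⟨h1, h2⟩ := hind s t h0
      rcases hst with h | h
      · exact h h1
      · exact h h2
    have h1 : ‖T (s • u (i, 0) + t • u (i, 1))‖ ^ 2 <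
        G (s • u (i, 0) + t • u (i, 1)) (s • u (i, 0) + t • u (i, 1)) := hF p _ hne
    rw [← real_inner_self_eq_norm_sq] at h1
    simp only [map_add, map_smul, add_apply, smul_apply, inner_add_left, inner_add_right,
      real_inner_smul_left, real_inner_smul_right, smul_eq_mul, ContinuousLinearMap.add_apply,
      ContinuousLinearMap.smul_apply] at h1
    have h2 := hsym (u (i, 1)) (u (i, 0))
    have h3 := real_inner_comm (T (u (i, 0))) (T (u (i, 1)))
    rw [h2, h3] at h1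
    linarith
  set A := G (u (i, 0)) (u (i, 0)) - ⟪T (u (i, 0)), T (u (i, 0))⟫
  set B := G (u (i, 0)) (u (i, 1)) - ⟪T (u (i, 0)), T (u (i, 1))⟫
  set C := G (u (i, 1)) (u (i, 1)) - ⟪T (u (i, 1)), T (u (i, 1))⟫
  have h1 := hpos 0 1 (Or.inr one_ne_zero)
  have h3 : 0 < C := by linarith
  have h2 := hpos C (-B) (Or.inl h3.ne')
  have h4 : 0 < C * (A * C - B ^ 2) := by
    calc 0 < _ := h2
      _ = _ := by ring
  exact (pos_iff_pos_of_mul_pos h4).1 h3

/-- strict shortness is uniform -/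
theorem exists_theta (hF : StrictShort g H.F) : ∃ θ : ℝ, 0 < θ ∧ θ ≤ 1 ∧ ∀ x ξ,
    qfm ((lineM K b H).cover.met (dIn K b H D g hp).F) x ξ ≤
      (1 - θ) * qfm (gC K b H g) x ξ := by
  have hfin : FiniteDimensional ℝ E := Module.Basis.finiteDimensional_of_finite b
  have hTT : TSm (lineM K b H).cover (fun j k x => gC K b H g j k x -
      (lineM K b H).cover.met (dIn K b H D g hp).F j k x) :=
    ⟨isT_sub (dIn K b H D g hp).gT.1 (dIn K b H D g hp).metT.1, fun j k =>
      ⟨DAlg.sm_sub _ ((dIn K b H D g hp).gT.2 j k).1 ((dIn K b H D g hp).metT.2 j k).1,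
        Rl.sub ((dIn K b H D g hp).gT.2 j k).2 ((dIn K b H D g hp).metT.2 j k).2⟩⟩
  have hq : ∀ x ξ, qfm (fun j k x => gC K b H g j k x -
      (lineM K b H).cover.met (dIn K b H D g hp).F j k x) x ξ =
      qfm (gC K b H g) x ξ - qfm ((lineM K b H).cover.met (dIn K b H D g hp).F) x ξ := by
    intro x ξ
    unfold qfm
    rw [← Finset.sum_sub_distrib]
    refine Finset.sum_congr rfl fun j _ => ?_
    rw [← Finset.sum_sub_distrib]
    refine Finset.sum_congr rfl fun k _ => ?_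
    rw [Complex.sub_re]
    ring
  have hq0 : ∀ x ξ, 0 ≤ qfm (fun j k x => gC K b H g j k x -
      (lineM K b H).cover.met (dIn K b H D g hp).F j k x) x ξ := by
    intro x ξ
    rw [hq, qfm_gC, qf_metC]
    by_cases hv : (∑ j, ξ j • K.XE b j ((lineM K b H).pi x) : E) = 0
    · rw [hv]
      simp
    · linarith [hF ((lineM K b H).pi x) _ hv]
  obtain ⟨c, hc, hpl⟩ := exists_pl (posS_cover (posS_dalg K b)) (dIn K b H D g hp).spanH hTT hq0
    (rest_rank K b g H D hp hF)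
  obtain ⟨C, hC, h⟩ := exists_cmp hc hpl hTT hq0 (dIn K b H D g hp).gT
  refine ⟨min 1 (1 / C), lt_min one_pos (by positivity), min_le_left _ _, fun x ξ => ?_⟩
  have h1 := h x ξ
  rw [hq, abs_of_nonneg (gC_nonneg K b H g x ξ)] at h1
  have h2 := gC_nonneg K b H g x ξ
  have h3 : min 1 (1 / C) * qfm (gC K b H g) x ξ ≤ 1 / C * qfm (gC K b H g) x ξ :=
    mul_le_mul_of_nonneg_right (min_le_right _ _) h2
  have h4 : 1 / C * qfm (gC K b H g) x ξ ≤
      qfm (gC K b H g) x ξ - qfm ((lineM K b H).cover.met (dIn K b H D g hp).F) x ξ := by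
    calc 1 / C * qfm (gC K b H g) x ξ ≤ 1 / C * (C * (qfm (gC K b H g) x ξ -
          qfm ((lineM K b H).cover.met (dIn K b H D g hp).F) x ξ)) :=
          mul_le_mul_of_nonneg_left h1 (by positivity)
      _ = _ := by field_simp
  linarith

end cov

/-- exact maps on the surface: close to the given map, with large second derivatives -/
theorem exists_exact_strict [T2Space M] [Nonempty M] (H : ImmN E M) (hF : StrictShort g H.F)
    {ρ : ℝ} (hρ : 0 < ρ) (R : ℝ) :
    ∃ F : Fin 4 → M → ℂ, (∀ a, (K.dalg b).Sm (F a)) ∧ (∀ a, Rl (F a)) ∧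
      (∀ j k p, (K.dalg b).met F j k p = K.G b g j k p) ∧
      (∀ a p, ‖F a p - ((H.F p a : ℝ) : ℂ)‖ ≤ 2 * ρ) ∧
      ∀ p, ∃ j k a, R ≤ ‖(K.dalg b).D j ((K.dalg b).D k (F a)) p‖ := by
  have hfin : FiniteDimensional ℝ E := Module.Basis.finiteDimensional_of_finite b
  have hT : (K.dalg b).T1U' := DAlg.iter' (K.dalg b) (fun Q _ => DAlg.stageF_all (K.dalg b) Q)
    (DAlg.pieces _) (K.complete b) (K.smoothing b)
  have hS : (K.dalg b).T1S' (K.G b g) :=
    hT.t1s (K.G_isT b g) (K.G_rl b g) (K.G_contMDiff b g) (fun _ h0 => K.exists_boxes b g h0)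
  obtain ⟨D⟩ := exists_mdataN K b H
  have hp := primC_cover K b H _ (gC_pos K b H g)
  obtain ⟨θ, hθ0, hθ1, hθ⟩ := exists_theta K b g H D hp hF
  obtain ⟨D', hD'⟩ := exists_shr (posS_cover (posS_dalg K b)) (dIn K b H D g hp) hθ0 hθ1 hθ
  obtain ⟨F, h1, h2, h3, h4, h5⟩ := descend_near (lineM K b H) hS hρ
    (X0 := (dIn K b H D g hp).F)
    (fun κ1 hκ1 => hD'.model (nashC (dim2_cover K b H)) chiT (TData.lowerC _) (tensC D') hκ1) R
  refine ⟨F, h1, h2, h3, fun a p => ?_, h5⟩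
  obtain ⟨x, rfl⟩ := (isCov_cover (lineM K b H)).surj p
  exact h4 a x

/-- isometric immersions, close to the given map and with large second derivatives -/
theorem exists_large_strict [T2Space M] [Nonempty M] (H : ImmN E M) (hF : StrictShort g H.F)
    {ρ : ℝ} (hρ : 0 < ρ) (R : ℝ) :
    ∃ X : Fin 4 → M → ℝ, (∀ i, ContMDiff 𝓘(ℝ, E) 𝓘(ℝ) ∞ (X i)) ∧
      (∀ (m : M) (v w : TangentSpace 𝓘(ℝ, E) m),
        ∑ i, mvfderiv 𝓘(ℝ, E) (X i) m v * mvfderiv 𝓘(ℝ, E) (X i) m w = g.inner m v w) ∧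
      (∀ m, ∑ i, (X i m - H.F m i) ^ 2 ≤ ρ ^ 2) ∧
      ∀ p, ∃ j k, R ≤ ‖K.Dv b j (K.Dv b k (vec X)) p‖ := by
  have hfin : FiniteDimensional ℝ E := Module.Basis.finiteDimensional_of_finite b
  obtain ⟨F, h1, h2, h3, h4, h5⟩ := exists_exact_strict K b g H hF (ρ := ρ / 4) (by positivity) R
  have hX : ∀ i, ContMDiff 𝓘(ℝ, E) 𝓘(ℝ, ℝ) ∞ (fun p => (F i p).re) :=
    fun i => Cov.contMDiff_re (h1 i)
  refine ⟨fun i p => (F i p).re, hX, real_isom K b g F h1 h2 h3, fun m => ?_, fun p => ?_⟩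
  · have h6 : ∀ i, ((F i m).re - H.F m i) ^ 2 ≤ (ρ / 2) ^ 2 := fun i => by
      have h8 : (F i m - ((H.F m i : ℝ) : ℂ)).re = (F i m).re - H.F m i := by
        rw [Complex.sub_re, Complex.ofReal_re]
      have h7 : |(F i m).re - H.F m i| ≤ ρ / 2 := by
        rw [← h8]
        exact (Complex.abs_re_le_norm _).trans ((h4 i m).trans (le_of_eq (by ring)))
      rw [← sq_abs]
      exact pow_le_pow_left₀ (abs_nonneg _) h7 2
    calc ∑ i, ((F i m).re - H.F m i) ^ 2 ≤ ∑ _i : Fin 4, (ρ / 2) ^ 2 :=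
          Finset.sum_le_sum fun i _ => h6 i
      _ = ρ ^ 2 := by simp; ring
  · obtain ⟨j, k, a, h6⟩ := h5 p
    refine ⟨j, k, h6.trans ?_⟩
    have hFa : F a = fun p => (((F a p).re : ℝ) : ℂ) := by
      funext p
      exact Complex.ext (by simp) (by simpa using h2 a p)
    have e1 : (K.dalg b).D j ((K.dalg b).D k (F a)) p =
        ((K.Dv b j (K.Dv b k (fun p => (F a p).re)) p : ℝ) : ℂ) := by
      rw [Cov.dalg_D, Cov.dalg_D]
      conv_lhs => rw [hFa]
      rw [K.Dv_ofReal b (hX a), K.Dv_ofReal b (K.Dv_contMDiff b (hX a) k)]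
    rw [e1, Complex.norm_real]
    have hv := contMDiff_vec hX
    have e2 : K.Dv b k (fun p => (F a p).re) = fun p =>
        (EuclideanSpace.proj a : EuclideanSpace ℝ (Fin 4) →L[ℝ] ℝ)
          (K.Dv b k (vec fun i p => (F i p).re) p) :=
      K.Dv_clm b (EuclideanSpace.proj a : EuclideanSpace ℝ (Fin 4) →L[ℝ] ℝ) hv k
    have e3 : K.Dv b j (K.Dv b k (fun p => (F a p).re)) p =
        (EuclideanSpace.proj a : EuclideanSpace ℝ (Fin 4) →L[ℝ] ℝ)
          (K.Dv b j (K.Dv b k (vec fun i p => (F i p).re)) p) := by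
      rw [e2, K.Dv_clm b (EuclideanSpace.proj a : EuclideanSpace ℝ (Fin 4) →L[ℝ] ℝ)
        (K.Dv_contMDiff b hv k)]
    rw [e3]
    exact PiLp.norm_apply_le (p := 2) (β := fun _ : Fin 4 => ℝ)
      (K.Dv b j (K.Dv b k (vec fun i p => (F i p).re)) p) a

end main

/-- **Density near strictly short maps.** Near every immersion `F : M → ℝ⁴` with a nowhere zero
normal field `ξ` and `F^*⟨·,·⟩ < g` there are infinitely many smooth isometric immersions of
`(M, g)`, pairwise nowhere locally congruent. -/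
theorem strict {E : Type} [NormedAddCommGroup E] [NormedSpace ℝ E]
    (hE : Module.finrank ℝ E = 2) {M : Type u} [TopologicalSpace M] [T2Space M] [CompactSpace M]
    [ChartedSpace E M] [IsManifold 𝓘(ℝ, E) ∞ M] (F ξ : Fin 4 → M → ℝ)
    (hF : ∀ i, ContMDiff 𝓘(ℝ, E) 𝓘(ℝ) ∞ (F i)) (hξ : ∀ i, ContMDiff 𝓘(ℝ, E) 𝓘(ℝ) ∞ (ξ i))
    (himm : ∀ (m : M) (v : TangentSpace 𝓘(ℝ, E) m), v ≠ 0 →
      ∃ i, mvfderiv 𝓘(ℝ, E) (F i) m v ≠ 0)
    (hξ0 : ∀ m, ∃ i, ξ i m ≠ 0)
    (hperp : ∀ (m : M) (v : TangentSpace 𝓘(ℝ, E) m),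
      ∑ i, ξ i m * mvfderiv 𝓘(ℝ, E) (F i) m v = 0)
    (g : Bundle.ContMDiffRiemannianMetric 𝓘(ℝ, E) ∞ E (fun x : M => TangentSpace 𝓘(ℝ, E) x))
    (hg : ∀ (m : M) (v : TangentSpace 𝓘(ℝ, E) m), v ≠ 0 →
      ∑ i, mvfderiv 𝓘(ℝ, E) (F i) m v ^ 2 < g.inner m v v)
    {ρ : ℝ} (hρ : 0 < ρ) :
    ∃ X : ℕ → Fin 4 → M → ℝ, (∀ n i, ContMDiff 𝓘(ℝ, E) 𝓘(ℝ) ∞ (X n i)) ∧
      (∀ n (m : M) (v w : TangentSpace 𝓘(ℝ, E) m),
        ∑ i, mvfderiv 𝓘(ℝ, E) (X n i) m v * mvfderiv 𝓘(ℝ, E) (X n i) m w = g.inner m v w) ∧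
      (∀ n m, ∑ i, (X n i m - F i m) ^ 2 ≤ ρ ^ 2) ∧
      ∀ n n', n ≠ n' → ∀ U : Set M, IsOpen U → U.Nonempty →
        ∀ A : EuclideanSpace ℝ (Fin 4) → EuclideanSpace ℝ (Fin 4), Isometry A →
          ¬ ∀ m ∈ U, WithLp.toLp 2 (fun i => X n i m) = A (WithLp.toLp 2 fun i => X n' i m) := by
  rcases isEmpty_or_nonempty M with he | he
  · exact ⟨fun _ _ _ => 0, fun _ _ => contMDiff_const, fun _ m => (he.false m).elim,
      fun _ m => (he.false m).elim, fun _ _ _ _ _ hU => (he.false hU.some).elim⟩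
  have hfin : FiniteDimensional ℝ E :=
    FiniteDimensional.of_finrank_pos (by rw [hE]; exact two_pos)
  obtain ⟨K⟩ := Cov.exists (E := E) (M := M)
  have b := Module.finBasisOfFinrankEq ℝ E hE
  obtain ⟨H, hH⟩ := immN_of_pair' (E := E) (vec F) (vec ξ) (contMDiff_vec hF) (fun p => by
      have h1 : ∀ v : E, Cov.dfE (vec F) p v = 0 → v = 0 := by
        intro v hv
        by_contra hne
        obtain ⟨i, hi⟩ := himm p v hne
        apply hi
        have h2 := dfE_vec hF p v i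
        rw [hv] at h2
        exact h2.symm
      exact (injective_iff_map_eq_zero (Cov.dfE (vec F) p : E →L[ℝ] _)).2 h1)
    (contMDiff_vec hξ) (fun p v => by
      have h1 : inner ℝ (vec ξ p) (Cov.dfE (E := E) (vec F) p v) = 0 := by
        rw [PiLp.inner_apply]
        refine Eq.trans (Finset.sum_congr rfl fun i _ => ?_) (hperp p v)
        rw [dfE_vec hF p v i]
        simp only [RCLike.inner_apply, conj_trivial]
        exact mul_comm _ _
      exact h1)
    (fun p h => by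
      obtain ⟨i, hi⟩ := hξ0 p
      apply hi
      exact congrArg (fun x : EuclideanSpace ℝ (Fin 4) => x i) h)
  have hS : StrictShort g H.F := by
    intro p v hv
    rw [hH, EuclideanSpace.norm_sq_eq]
    refine lt_of_eq_of_lt ?_ (hg p v hv)
    refine Finset.sum_congr rfl fun i _ => ?_
    rw [dfE_vec hF p v i, Real.norm_eq_abs, sq_abs]
  choose Y hY1 hY2 hY3 hY4 using fun R => exists_large_strict K b g H hS hρ R
  choose B hB using fun R => exists_bound_Dv2 K b (contMDiff_vec (hY1 R))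
  let r : ℕ → ℝ := fun n => Nat.rec 0 (fun _ x => max x (B x) + 1) n
  have hrs : ∀ n, r (n + 1) = max (r n) (B (r n)) + 1 := fun n => rfl
  have hrm : Monotone r := monotone_nat_of_le_succ fun n => by
    rw [hrs]
    linarith [le_max_left (r n) (B (r n))]
  have hrB : ∀ m n, m < n → B (r m) < r n := fun m n hmn => by
    have h1 : r (m + 1) ≤ r n := hrm hmn
    rw [hrs] at h1
    linarith [le_max_right (r m) (B (r m))]
  refine ⟨fun n => Y (r n), fun n i => hY1 _ i, fun n => hY2 _, fun n m => ?_,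
    fun n n' hnn U hU hne A hA hcon => ?_⟩
  · have h1 := hY3 (r n) m
    rw [hH] at h1
    exact h1
  obtain ⟨p, hp⟩ := hne
  have key := norm_Dv2_congr K b (contMDiff_vec (hY1 (r n))) (contMDiff_vec (hY1 (r n'))) hU hA
    (fun q hq => hcon q hq)
  rcases lt_or_gt_of_ne hnn with hlt | hlt
  · obtain ⟨j, k, h1⟩ := hY4 (r n') p
    have h2 := key j k p hp
    have h3 := hB (r n) j k p
    have h4 := hrB n n' hlt
    linarith
  · obtain ⟨j, k, h1⟩ := hY4 (r n) p
    have h2 := key j k p hp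
    have h3 := hB (r n') j k p
    have h4 := hrB n' n hlt
    linarith

end Vale.Agent.P205.H308

end
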